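import Vale.Agent.P011UF.IF
import Vale.Agent.P011UE.Kit
import Vale.Agent.P011UY.Loc

/-!
The units of a quaternion algebra over a cubic extension with reduced norm in the base field.
-/

set_option autoImplicit false
set_option linter.all false

open Module
open scoped commutatorElement

namespace Vale.Agent.P011UF7

open Vale.Agent.P011.H738 (Place)
open Vale.Agent.P011.W (Spl)
open Vale.Agent.P011UE Vale.Agent.P011UF

section gen
variable {k l Q : Type} [Field k] [Field l] [Algebra k l] [Ring Q] [Algebra l Q]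

theorem sq_conj (g : Qˣ) {y : Qˣ} (h : y ∈ Sq k l Q) : g * y * g⁻¹ ∈ Sq k l Q := by
  obtain ⟨h1, t, n, a, b, r⟩ := h
  refine ⟨fun ⟨c, e⟩ => h1 ⟨c, ?_⟩, t, n, a, b, ?_⟩
  · have : (y : Q) = (g⁻¹ : Qˣ) * ((g * y * g⁻¹ : Qˣ) : Q) * g := by
      rw [← Units.val_mul, ← Units.val_mul]; congr 1; group
    rw [this, ← e, ← Algebra.commutes, mul_assoc, Units.inv_mul, mul_one]
  · have := congrArg (fun x => (g : Q) * x * (g⁻¹ : Qˣ)) r
    simp only [mul_add, add_mul, mul_sub, sub_mul, mul_zero, zero_mul, mul_smul_comm,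
      smul_mul_assoc, ← Algebra.commutes _ (g : Q), mul_assoc, Units.mul_inv, mul_one] at this
    simpa only [Rt, Units.val_mul, mul_assoc, Units.inv_mul_cancel_left] using this

instance : (Subgroup.closure (Sq k l Q)).Normal := ⟨fun x hx g => by
  induction hx using Subgroup.closure_induction with
  | mem y hy => exact Subgroup.subset_closure (sq_conj g hy)
  | one => simp
  | mul a b _ _ ha hb => simpa [mul_assoc] using mul_mem ha hb
  | inv a _ ha => simpa [mul_assoc] using inv_mem ha⟩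

end gen

section split
variable {k l : Type} [Field k] [Field l] [Algebra k l]

/-- The matrix is in the subgroup. -/
def In (k : Type) [Field k] [Algebra k l] (x : Matrix (Fin 2) (Fin 2) l) : Prop :=
  ∃ u ∈ Subgroup.closure (Sq k l (Matrix (Fin 2) (Fin 2) l)), u.1 = x

theorem In.mul {x y : Matrix (Fin 2) (Fin 2) l} (h : In k x) (h' : In k y) : In k (x * y) :=
  let ⟨u, a, b⟩ := h
  let ⟨v, c, d⟩ := h'
  ⟨u * v, mul_mem a c, by rw [← b, ← d]; rfl⟩

theorem In.can {x y z : Matrix (Fin 2) (Fin 2) l} (h : In k z) (h' : In k y) (e : x * y = z) :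
    In k x :=
  let ⟨u, a, b⟩ := h
  let ⟨v, c, d⟩ := h'
  ⟨u * v⁻¹, mul_mem a (inv_mem c), by rw [Units.val_mul, b, ← e, ← d, Units.mul_inv_cancel_right]⟩

theorem in_gen {r : k} (h0 : r ≠ 0) (h1 : r ≠ 1) (h2 : r ≠ -1) {b c : l} (e : b * c = 0) :
    In k !![algebraMap k l r, b; c, 1] := by
  refine ⟨Matrix.GeneralLinearGroup.mkOfDetNeZero _ (by simpa [Matrix.det_fin_two, e] using h0),
    Subgroup.subset_closure ⟨fun hd => h1 ?_, r + 1, r, fun a => h2 (by linear_combination a),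
      fun a => h1 ?_, ?_⟩, rfl⟩
  · obtain ⟨d, hd⟩ := hd
    have a0 := congrFun (congrFun hd 0) 0
    have a1 := congrFun (congrFun hd 1) 1
    simp [Matrix.algebraMap_matrix_apply, Matrix.GeneralLinearGroup.mkOfDetNeZero] at a0 a1
    exact (algebraMap k l).injective (by rw [← a0, a1, map_one])
  · exact sub_eq_zero.1 (pow_eq_zero_iff two_ne_zero |>.1 (by linear_combination a))
  · show !![algebraMap k l r, b; c, 1] * !![algebraMap k l r, b; c, 1] - _ • !![_, b; c, 1] + _ = _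
    rw [map_add, map_one]
    generalize algebraMap k l r = s
    ext i j
    fin_cases i <;> fin_cases j <;> simp [Matrix.algebraMap_matrix_apply, mul_comm c, e] <;> ring

variable [Infinite k]

theorem in_tri {r : k} (h0 : r ≠ 0) {b c : l} (e : b * c = 0) :
    In k !![algebraMap k l r, b; c, 1] := by
  classical
  obtain ⟨s, hs⟩ := Infinite.exists_notMem_finset ({0, 1, -1, r⁻¹, -r⁻¹} : Finset k)
  simp only [Finset.mem_insert, Finset.mem_singleton, not_or] at hs
  obtain ⟨a, a1, a2, a3, a4⟩ := hs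
  refine (in_gen (r := r * s) (mul_ne_zero h0 a) (fun x => a3 (eq_inv_of_mul_eq_one_right x))
    (fun x => a4 ?_) (b := b) (c := c * algebraMap k l s) (by rw [← mul_assoc, e, zero_mul])).can
    (in_gen a a1 a2 (b := 0) (c := 0) (mul_zero _)) (by
      rw [map_mul]
      generalize algebraMap k l r = x
      simp)
  field_simp
  linear_combination x

theorem in_one {b c : l} (e : b * c = 0) : In k !![1, b; c, 1] := by
  simpa using in_tri (k := k) one_ne_zero e

theorem in_sl {a b c d : l} (e : a * d - b * c = 1) : In k !![a, b; c, d] := by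
  have s : ∀ {a b c d : l}, a * d - b * c = 1 → c ≠ 0 → In k !![a, b; c, d] := fun {a b c d} e h => by
    have := ((in_one (k := k) (b := (a - 1) / c) (mul_zero _)).mul
      (in_one (c := c) (zero_mul _))).mul (in_one (b := (d - 1) / c) (mul_zero _))
    convert this using 1
    ext i j
    fin_cases i <;> fin_cases j <;> simp <;> field_simp
    · ring
    · linear_combination -e
    · ring
  by_cases h : c = 0
  · subst h
    exact (s (a := a + b) (b := b) (c := d) (d := d) (by linear_combination e) fun x => by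
      simp [x] at e).can (in_one (c := 1) (zero_mul _)) (by simp)
  · exact s e h

theorem qs : QS := fun k l _ _ _ _ x ⟨r, hr⟩ => by
  have d : x.1.det ≠ 0 := ((Matrix.isUnit_iff_isUnit_det _).1 x.isUnit).ne_zero
  have r0 : algebraMap k l r ≠ 0 := hr ▸ d
  rw [Matrix.det_fin_two] at hr
  obtain ⟨u, hu, e⟩ := (in_tri (k := k) (r := r) (fun a => r0 (by rw [a, map_zero]))
    (b := 0) (c := 0) (mul_zero _)).mul (in_sl (a := x.1 0 0 / algebraMap k l r)
      (b := x.1 0 1 / algebraMap k l r) (c := x.1 1 0) (d := x.1 1 1) (by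
        field_simp; exact hr.symm))
  refine (Units.ext (e.trans ?_) : u = x) ▸ hu
  ext i j
  fin_cases i <;> fin_cases j <;> simp [Algebra.smul_def] <;> field_simp

end split

section div
variable {l Q : Type} [Field l] [DivisionRing Q] [Algebra l Q] [FiniteDimensional l Q] {N : Q →* l}
  (h : Dv l Q 2 N)
include h

theorem ex_nc {y : Q} (hy : y ∉ Set.range (algebraMap l Q)) : ∃ z, y * z ≠ z * y := by
  have := h.central
  by_contra! a
  exact hy (Algebra.mem_bot.1 (Algebra.IsCentral.out (Subalgebra.mem_center_iff.2 fun z =>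
    (a z).symm)))

theorem nrd_rt {t n : l} {y : Q} (hy : y ∉ Set.range (algebraMap l Q)) (r : Rt t n y) :
    N y = n := by
  obtain ⟨f, hf⟩ := h.split
  obtain ⟨z, hz⟩ := ex_nc h hy
  have e := congrArg f r
  rw [map_add, map_sub, map_mul, map_smul, f.commutes, map_zero] at e
  have c : f y * f z ≠ f z * f y := fun a => hz (f.toRingHom.injective (by simpa using a))
  apply (algebraMap l (AlgebraicClosure l)).injective
  rw [hf, Matrix.det_fin_two]
  generalize f y = Y at *
  generalize f z = Z at *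
  have e0 := congrFun (congrFun e 0) 0
  have e1 := congrFun (congrFun e 0) 1
  have e2 := congrFun (congrFun e 1) 0
  have e3 := congrFun (congrFun e 1) 1
  simp [Matrix.mul_apply, Matrix.algebraMap_matrix_apply, Algebra.smul_def] at e0 e1 e2 e3
  by_cases a : Y 0 0 + Y 1 1 - algebraMap l _ t = 0
  · linear_combination Y 0 0 * a - e0
  · have b1 : Y 0 1 = 0 := (mul_eq_zero.1 (by linear_combination e1)).resolve_right a
    have b2 : Y 1 0 = 0 := (mul_eq_zero.1 (by linear_combination e2)).resolve_right a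
    have b3 : Y 0 0 - Y 1 1 = 0 := (mul_eq_zero.1 (by linear_combination e0 - e3)).resolve_right a
    refine absurd ?_ c
    ext i j
    fin_cases i <;> fin_cases j <;> simp [Matrix.mul_apply, b1, b2, sub_eq_zero.1 b3] <;> ring

theorem n_neg (x : Q) : N (-x) = N x := by
  rw [← neg_one_mul, map_mul, ← map_one (algebraMap l Q), ← map_neg, h.alg]
  simp

theorem n_sub (x y : Q) : N (x - y) = N (y - x) := by rw [← n_neg h, neg_sub]

theorem n_inv (u : Qˣ) : N (u⁻¹ : Qˣ) = (N u)⁻¹ :=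
  eq_inv_of_mul_eq_one_left (by rw [← map_mul, Units.inv_mul, map_one])

/-- A noncentral commutator. -/
theorem ex_cm {y : Qˣ} (hy : (y : Q) ∉ Set.range (algebraMap l Q)) :
    ∃ z : Qˣ, ∃ q : Q, ((⁅y, z⁆ : Qˣ) : Q) * q ≠ q * (⁅y, z⁆ : Qˣ) := by
  obtain ⟨z, hz⟩ := ex_nc h hy
  by_contra! a
  have z0 : z ≠ 0 := fun e => hz (by simp [e])
  have z1 : 1 + z ≠ 0 := fun e => hz (by simp [eq_neg_of_add_eq_zero_right e])
  have k : ∀ u : Qˣ, ((⁅y, u⁆ : Qˣ) : Q) * u * y = y * u := fun u => by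
    rw [← Units.val_mul, ← Units.val_mul, ← Units.val_mul, commutatorElement_def]; congr 1; group
  have k1 := k (Units.mk0 z z0)
  have k2 := k (Units.mk0 _ z1)
  have c1 := a (Units.mk0 z z0) y
  have c2 := a (Units.mk0 _ z1) y
  generalize ((⁅y, Units.mk0 z z0⁆ : Qˣ) : Q) = p at *
  generalize ((⁅y, Units.mk0 _ z1⁆ : Qˣ) : Q) = q at *
  simp only [Units.val_mk0] at k1 k2
  have e : (p - q) * z = q - 1 := mul_right_cancel₀ y.ne_zero (by
    have : (p - q) * z * y - (q - 1) * y = p * z * y - q * (1 + z) * y + y := by noncomm_ring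
    rw [k1, k2] at this
    exact sub_eq_zero.1 (this.trans (by noncomm_ring)))
  have e2 : (p - q) * (y * z - z * y) = 0 := by
    have a1 : (p - q) * y = y * (p - q) := by rw [sub_mul, mul_sub, c1, c2]
    rw [mul_sub, ← mul_assoc, a1, mul_assoc, e, ← mul_assoc, e, mul_sub, sub_mul, c2]
    simp
  have e3 := (mul_eq_zero.1 e2).resolve_right (sub_ne_zero.2 hz)
  rw [e3, zero_mul, eq_comm, sub_eq_zero] at e
  rw [sub_eq_zero.1 e3, e, one_mul] at k1
  exact hz k1.symm

variable {B : Finset (Place l)}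
  (u : ∀ w ∈ B, ∀ x y : Q, w.abv (N (x + y)) ≤ max (w.abv (N x)) (w.abv (N y)))
  (H : Subgroup Qˣ) (hH : H ≤ G1 N)

/-- The closure of H for the places of B. -/
def cl : Subgroup (Place l → Qˣ) where
  carrier := {γ | (∀ w, γ w ∈ G1 N) ∧ ∀ ε > 0, ∃ a ∈ H, ∀ w ∈ B, w.abv (N ((a : Q) - γ w)) < ε}
  one_mem' := ⟨fun _ => one_mem _, fun ε p => ⟨1, one_mem _, fun w _ => by
    have := h.alg 0
    simpa [map_zero (algebraMap l Q) ▸ this] using p⟩⟩
  mul_mem' := fun {γ δ} a b => ⟨fun w => mul_mem (a.1 w) (b.1 w), fun ε p =>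
    let ⟨x, hx, c⟩ := a.2 ε p
    let ⟨y, hy, d⟩ := b.2 ε p
    ⟨x * y, mul_mem hx hy, fun w hw => by
      rw [show ((x * y : Qˣ) : Q) - (γ * δ) w = x * (y - δ w) + (x - γ w) * δ w by
        simp only [Pi.mul_apply, Units.val_mul]; noncomm_ring]
      refine (u w hw _ _).trans_lt (max_lt ?_ ?_)
      · rw [map_mul N, mem_G1.1 (hH hx), one_mul]; exact d w hw
      · rw [map_mul N, mem_G1.1 (b.1 w), mul_one]; exact c w hw⟩⟩
  inv_mem' := fun {γ} a => ⟨fun w => inv_mem (a.1 w), fun ε p =>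
    let ⟨x, hx, c⟩ := a.2 ε p
    ⟨x⁻¹, inv_mem hx, fun w hw => by
      rw [show ((x⁻¹ : Qˣ) : Q) - γ⁻¹ w = (x⁻¹ : Qˣ) * (γ w - x) * ((γ w)⁻¹ : Qˣ) by
        simp only [Pi.inv_apply, mul_sub, sub_mul, Units.inv_mul, one_mul,
          Units.mul_inv_cancel_right], map_mul N, map_mul N, mem_G1.1 (inv_mem (hH hx)),
        mem_G1.1 (inv_mem (a.1 w)), one_mul, mul_one, n_sub h]
      exact c w hw⟩⟩

open scoped Classical

/-- The component at one place. -/
noncomputable def cw (w : Place l) : Subgroup Qˣ :=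
  (cl h u H hH).comap (MonoidHom.mulSingle (fun _ => Qˣ) w)

theorem cw_le (w : Place l) : cw h u H hH w ≤ G1 N := fun g a => by simpa using a.1 w

theorem cw_normal [n : H.Normal] (w : Place l) : (cw h u H hH w).Normal := ⟨fun g a x => by
  have e : ∀ v, MonoidHom.mulSingle (fun _ => Qˣ) w (x * g * x⁻¹) v =
      x * MonoidHom.mulSingle (fun _ => Qˣ) w g v * x⁻¹ := fun v => by
    by_cases c : v = w
    · subst c; simp
    · simp [c]
  refine ⟨fun v => e v ▸ Subgroup.Normal.conj_mem inferInstance _ (a.1 v) x, fun ε p => ?_⟩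
  obtain ⟨y, hy, c⟩ := a.2 ε p
  refine ⟨x * y * x⁻¹, n.conj_mem _ hy x, fun v hv => ?_⟩
  rw [e, Units.val_mul, Units.val_mul, Units.val_mul, Units.val_mul, ← sub_mul, ← mul_sub, map_mul N,
    map_mul N, n_inv h, mul_right_comm, mul_inv_cancel₀ (Dv.ne_zero x), one_mul]
  exact c v hv⟩

theorem cw_cm (wa : ∀ (y : Place l → Q) (ε : ℝ), 0 < ε → ∃ z : Q, ∀ w ∈ B, w.abv (N (z - y w)) < ε)
    {w : Place l} (hw : w ∈ B) {s : Qˣ} (hs : ∀ z, ⁅s, z⁆ ∈ H) (y : Qˣ) :
    ⁅s, y⁆ ∈ cw h u H hH w := by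
  have e : ∀ v, MonoidHom.mulSingle (fun _ => Qˣ) w ⁅s, y⁆ v =
      ⁅s, MonoidHom.mulSingle (fun _ => Qˣ) w y v⁆ := fun v => by
    rw [MonoidHom.mulSingle_apply, MonoidHom.mulSingle_apply]
    by_cases c : v = w
    · subst c; simp
    · simp [c]
  refine ⟨fun v => e v ▸ comm_mem N _ _, fun ε p => ?_⟩
  have p0 : 0 < min (w.abv (N y)) 1 := lt_min (w.abv.pos (Dv.ne_zero y)) one_pos
  obtain ⟨z, hz⟩ := wa (fun v => MonoidHom.mulSingle (fun _ => Qˣ) w y v) _
    (mul_pos (lt_min p one_pos) p0)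
  have lo : ∀ v ∈ B, min (w.abv (N y)) 1 ≤ v.abv (N z) := fun v hv => by
    have a := u v hv (MonoidHom.mulSingle (fun _ => Qˣ) w y v - z) z
    rw [sub_add_cancel, n_sub h] at a
    have b : min (w.abv (N y)) 1 ≤ v.abv (N (MonoidHom.mulSingle (fun _ => Qˣ) w y v)) := by
      by_cases c : v = w
      · subst c; simp
      · simp [c]
    exact (le_max_iff.1 (b.trans a)).resolve_left (not_le.2 ((hz v hv).trans_le
      (mul_le_of_le_one_left p0.le (min_le_right _ _))))
  have z0 : z ≠ 0 := fun c => by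
    have := lo w hw
    rw [c, ← map_zero (algebraMap l Q), h.alg] at this
    simp only [ne_eq, OfNat.ofNat_ne_zero, not_false_eq_true, zero_pow, map_zero] at this
    exact absurd this (not_le.2 p0)
  refine ⟨_, hs (Units.mk0 z z0), fun v hv => ?_⟩
  have a := hz v hv
  have b := lo v hv
  rw [e]
  generalize MonoidHom.mulSingle (fun _ => Qˣ) w y v = x at a
  obtain ⟨Z, rfl⟩ : ∃ Z : Qˣ, Z = z := ⟨Units.mk0 z z0, rfl⟩
  have k : v.abv (N ((Z : Q) - x)) * (v.abv (N Z))⁻¹ < ε := by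
    rw [mul_inv_lt_iff₀ (p0.trans_le b)]
    exact a.trans_le (mul_le_mul (min_le_left _ _) b p0.le p.le)
  rw [Units.mk0_val, show ((⁅s, Z⁆ : Qˣ) : Q) - (⁅s, x⁆ : Qˣ) =
    s * (Z - x) * (s⁻¹ : Qˣ) * (Z⁻¹ : Qˣ) +
      s * x * (s⁻¹ : Qˣ) * ((Z⁻¹ : Qˣ) * (x - Z) * (x⁻¹ : Qˣ)) by
    simp only [commutatorElement_def, Units.val_mul, mul_sub, sub_mul, Units.inv_mul, one_mul,
      Units.mul_inv_cancel_right]
    abel]
  have s0 : N s ≠ 0 := Dv.ne_zero s
  have x0 : N x ≠ 0 := Dv.ne_zero x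
  rw [← map_inv₀, ← map_mul] at k
  refine (u v hv _ _).trans_lt (max_lt (k.trans_eq' ?_) (k.trans_eq' ?_)) <;>
    simp only [map_mul N, n_inv h, n_sub h (x : Q)] <;> congr 1 <;> field_simp

/-- The subgroup is dense. -/
theorem cl_all (a : ∀ w ∈ B, ∀ g ∈ G1 N, ∀ ε : ℝ, 0 < ε →
    ∃ x ∈ cw h u H hH w, w.abv (N ((x : Q) - g)) < ε) {g : Qˣ} (hg : g ∈ G1 N) (ε : ℝ) (p : 0 < ε) :
    ∃ x ∈ H, ∀ w ∈ B, w.abv (N ((x : Q) - g)) < ε := by
  have k : ∀ T ⊆ B, (fun w => if w ∈ T then g else 1) ∈ cl h u H hH := fun T => by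
    induction T using Finset.induction_on with
    | empty => exact fun _ => one_mem (cl h u H hH)
    | insert w T hw ih =>
      intro s
      have m : g ∈ cw h u H hH w := by
        refine ⟨fun v => ?_, fun ε p => ?_⟩
        · by_cases c : v = w
          · subst c; simpa using hg
          · simp [c]
        obtain ⟨x, hx, b⟩ := a w (s (Finset.mem_insert_self _ _)) g hg ε p
        obtain ⟨y, hy, c⟩ := hx.2 ε p
        refine ⟨y, hy, fun v hv => ?_⟩
        have := c v hv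
        by_cases d : v = w
        · subst d
          simp only [MonoidHom.mulSingle_apply, Pi.mulSingle_eq_same] at this ⊢
          rw [← sub_add_sub_cancel _ (x : Q)]
          exact (u v hv _ _).trans_lt (max_lt this b)
        · simpa [d] using this
      convert mul_mem (show _ ∈ cl h u H hH from m) (ih ((Finset.subset_insert _ _).trans s)) using 1
      funext v
      by_cases d : v = w
      · subst d; simp [hw]
      · simp [d]
  obtain ⟨x, hx, b⟩ := (k B subset_rfl).2 ε p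
  exact ⟨x, hx, fun w hw => by simpa only [if_pos hw] using b w hw⟩

end div

theorem qa (fi : FI) (ram : RAM) (emb : EMB) (val : VAL) (locd : LOCD) (gd1 : GD1) (gd2 : GD2) :
    QA := fun l Q _ _ _ _ N h k _ _ gk r3 x ⟨c, hc⟩ => by
  have fin : {w : Place l | Dp Q w}.Finite :=
    (ram l Q 2 N h).1.subset fun w hw => P011UY.not_spl h hw
  obtain ⟨v1, v2, v3⟩ := val l Q N h
  have mB : ∀ {w}, w ∈ fin.toFinset ↔ Dp Q w := fin.mem_toFinset
  generalize fin.toFinset = B at mB
  have gd : ∀ {t n}, Good k B {φ | ¬Spl Q 2 φ} t n → ∃ s ∈ Sq k l Q, N s = algebraMap k l n ∧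
      Rt (algebraMap k l t) (algebraMap k l n) (s : Q) := fun {t n} g => by
    obtain ⟨y, a, b⟩ := emb l Q N h (algebraMap k l t) (algebraMap k l n)
      (fun e => g.sep ((algebraMap k l).injective (by simpa [map_ofNat] using e)))
      (fun w hw => g.fin w (mB.2 hw)) fun φ => or_iff_not_imp_left.2 (g.real φ)
    exact ⟨Units.mk0 y fun e => a ⟨0, by rw [e, map_zero]⟩, ⟨a, t, n, g.ne, g.sep, b⟩,
      nrd_rt h a b, b⟩
  have cm : ∀ s ∈ Sq k l Q, ∀ z, ⁅s, z⁆ ∈ Subgroup.closure (Sq k l Q) ⊓ G1 N := fun s hs z =>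
    ⟨by
      rw [commutatorElement_def, mul_assoc, mul_assoc, ← mul_assoc z]
      exact mul_mem (Subgroup.subset_closure hs) (Subgroup.Normal.conj_mem inferInstance _
        (inv_mem (Subgroup.subset_closure hs)) z), comm_mem N _ _⟩
  obtain ⟨⟨t0, n0, g0⟩, g2⟩ := gd2 k l gk r3 B {φ | ¬Spl Q 2 φ}
  have u := fun w (hw : w ∈ B) => v1 w (mB.1 hw)
  have all : G1 N ≤ Subgroup.closure (Sq k l Q) := fun g hg => by
    obtain ⟨s, hs, -⟩ := gd g0
    obtain ⟨z, q, hq⟩ := ex_cm h hs.1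
    obtain ⟨ε, p, o⟩ := v2 B (fun w => mB.1) _ (fi l Q 2 N h B (fun w hw e => hw (mB.2 e))
      (Subgroup.closure (Sq k l Q) ⊓ G1 N) ⟨inf_le_right, fun g _ x hx =>
        Subgroup.Normal.conj_mem inferInstance x hx g, _, cm s hs z, q, hq⟩)
    obtain ⟨y, hy, b⟩ := cl_all h u _ inf_le_right (fun w hw => locd l Q N h w (u w hw) _
      (cw_normal h u (Subgroup.closure (Sq k l Q) ⊓ G1 N) inf_le_right w) (cw_le h u _ _ w) (by
        rcases gd1 k l gk r3 B {φ | ¬Spl Q 2 φ} w hw with ⟨t, n, g, e⟩ | ⟨e, e'⟩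
        · obtain ⟨s, hs, a, -⟩ := gd g
          exact .inl ⟨s, cw_cm h u _ _ (v3 B) hw (cm s hs), a ▸ e⟩
        · refine .inr ⟨e, fun t n un => ?_⟩
          obtain ⟨t', n', g, a1, a2⟩ := e' t n un
          obtain ⟨s, hs, -, a⟩ := gd g
          exact ⟨s, _, _, cw_cm h u _ _ (v3 B) hw (cm s hs), a1, a2, a⟩)) hg ε p
    have := o (y⁻¹ * g) (fun w hw => by
      rw [show ((y⁻¹ * g : Qˣ) : Q) - 1 = (y⁻¹ : Qˣ) * (g - y) by
        rw [mul_sub, Units.inv_mul, Units.val_mul], map_mul, mem_G1.1 (inv_mem hy.2), one_mul,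
        n_sub h]
      exact b w hw) (mul_mem (inv_mem hy.2) hg)
    simpa using mul_mem hy.1 this.1
  have c0 : c ≠ 0 := fun e => Dv.ne_zero x (by rw [← hc, e, map_zero])
  obtain ⟨p, hp, e⟩ := (Subgroup.closure_le (((Subgroup.closure (Sq k l Q)).map
    (Units.map N)).comap (Units.map (algebraMap k l : k →* l)))).2 (fun n g => by
      obtain ⟨s, hs, a, -⟩ := gd g.choose_spec
      exact ⟨s, Subgroup.subset_closure hs, Units.ext a⟩) (g2 (Units.mk0 c c0) fun φ hφ => by
        rw [Units.val_mk0, hc]; exact (h.pos x φ).resolve_left hφ)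
  have e' : N p = N x := (congrArg Units.val e).trans hc
  simpa using mul_mem hp (all (mem_G1.2 (show N ((p⁻¹ * x : Qˣ) : Q) = 1 by
    rw [Units.val_mul, map_mul, n_inv h, e', inv_mul_cancel₀ (Dv.ne_zero x)])))

end Vale.Agent.P011UF7
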